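import Vale.Agent.P307.Transfer

namespace Vale.Agent.Results.P307.MonadicCategoricity

open Vale.Agent.P307 Cardinal

universe u

/-- Shelah's eventual categoricity conjecture, with the explicit threshold `mu = (2 ^ lam)⁺`, for
abstract elementary classes in monadic vocabularies (only unary relation symbols), with no
amalgamation, joint embedding, tameness or set-theoretic hypothesis. -/
theorem result (lam : Cardinal.{u}) (_hlam : ℵ₀ ≤ lam) :
    ∃ mu : Cardinal.{u}, lam ≤ mu ∧ mu = Order.succ (2 ^ lam) ∧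
      ∀ (L : FirstOrder.Language.{u, u}), IsMonadic L → ∀ K : AEC L,
        (∃ l, l ≤ lam ∧ K.HasLS l) →
        (∃ κ, mu ≤ κ ∧ K.CategoricalIn κ) → ∀ κ', mu ≤ κ' → K.CategoricalIn κ' := by
  refine ⟨Order.succ (2 ^ lam), ?_, rfl, ?_⟩
  · exact (Cardinal.cantor lam).le.trans (Order.le_succ _)
  · rintro L hL K ⟨l, hl, hLS⟩ ⟨κ, hκ, hcat⟩ κ' hκ'
    exact monadic_transfer hL K lam (HasLS.mono hLS hl) κ κ' (Order.succ_le_iff.1 hκ)
      (Order.succ_le_iff.1 hκ') hcat

end Vale.Agent.Results.P307.MonadicCategoricity
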